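import Vale.Agent.P287.H802.Labelling

/-!
Lattice criteria for cubic fourfolds containing a plane.
-/

namespace Vale.Agent.Results.P287.LatticeCriterion

open LinearMap (BilinForm)
open Vale.Agent.P287.H802

universe u v

/-- **Cubic fourfolds containing a plane: admissible labellings, hyperbolic planes, and curves on
the double plane.** -/
theorem result :
    (∀ (A : Type u) [AddCommGroup A] [Module.Free ℤ A] [Module.Finite ℤ A]
        (B : BilinForm ℤ A) (h P : A),
      (∀ x y, B x y = B y x) → (∀ x, x ≠ 0 → 0 < B x x) → (∀ x, Even (B x x - B x h)) →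
      B h h = 3 → B P P = 3 → B P h = 1 →
      (∀ K d, IsLabelling B h K d → d ≠ 2 ∧ d ≠ 6) →
      List.TFAE [∃ K d, IsLabelling B h K d ∧ Admissible d,
        ∃ K d, IsLabelling B h K d ∧ d % 4 = 2,
        ∃ T, disc B h T % 4 = 2,
        HypPlane (kuForm B h) (fun _ => True),
        SurfaceTypes B h P]) ∧
    (∀ (L : Type v) [AddCommGroup L] (E : BilinForm ℤ L) (NS : Submodule ℤ L) (H b : L),
      (∀ x y, E x y = E y x) → (∀ x, Even (E x x)) →
      (∀ (n : ℤ) (x : L), n ≠ 0 → n • x ∈ NS → x ∈ NS) →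
      H ∈ NS → E H H = 2 → Odd (E b H) → E b b % 4 = 2 →
      (HypPlane (mukai E) (Twisted NS b) ↔
        (∃ D ∈ NS, ∃ c : L, b = D + (2 : ℤ) • c) ∨
        (∃ D ∈ NS, Even (E D H) ∧ Odd (E b D + E D D / 2)) ∨
        (∃ D ∈ NS, Odd (E D H) ∧ E D D % 4 = 0))) :=
  ⟨fun _ _ _ _ _ _ _ sB pos ch h3 hP hPh hsm => lattice_tfae sB pos ch h3 hP hPh hsm,
    fun _ _ _ _ _ _ sB ev sat hh h2 hb bb => twisted_iff sB ev sat hh h2 hb bb⟩

end Vale.Agent.Results.P287.LatticeCriterion
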