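import Vale.Agent.P287.C8.Parity2
import Vale.Agent.P287.C8.GenusFinal
import Vale.Agent.P287.C8.ScrollForms
import Vale.Agent.P287.C8.SmoothDisc
import Vale.Agent.P287.C8.TypeA
import Vale.Agent.P287.H754.OddMulti

/-!
The `if` direction of Kuznetsov's rationality conjecture for smooth cubic fourfolds `X` containing a
plane `P`, no other plane of `X` meeting `P` in a line: `X` is rational if the fibration in quadric
surfaces has a multisection of odd degree, or if the double plane `z² = det M` (a smooth K3 surface)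
has a suitable curve. The curve is given by its plane image, over which the double plane splits,
with a condition on a theta characteristic of the smooth plane sextic `det M = 0` (types A and C),
or as a curve of odd degree and odd arithmetic genus on the double plane (type D), or by a surface
in `X` swept out by lines of the quadric surfaces over a plane curve of even degree (type E).
-/

namespace Vale.Agent.Results.P287.SplittingCurve

open MvPolynomial Matrix Module Vale.Agent.P287

/-- The weights `0, 0, 0, 1` of the four coordinates `y₀, y₁, y₂, 1`. -/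
def weight : Fin 4 → ℕ := ![0, 0, 0, 1]

/-- `M` is the matrix of the quadric surface fibration of a cubic fourfold containing the plane
`x₀ = x₁ = x₂ = 0`: it is symmetric and `M i j` is a form in `x₀, x₁, x₂` of degree
`1 + weight i + weight j`. -/
structure IsFibrationMatrix (M : Matrix (Fin 4) (Fin 4) (MvPolynomial (Fin 3) ℂ)) : Prop where
  symm : M.IsSymm
  homogeneous : ∀ i j, (M i j).IsHomogeneous (1 + weight i + weight j)

/-- The cubic form `∑ M i j (x₀, x₁, x₂) v_i v_j` with `v = (x₃, x₄, x₅, 1)`. -/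
noncomputable def cubicForm (M : Matrix (Fin 4) (Fin 4) (MvPolynomial (Fin 3) ℂ)) :
    MvPolynomial (Fin 6) ℂ :=
  ![X 3, X 4, X 5, 1] ⬝ᵥ ((M.map (aeval ![X 0, X 1, X 2])) *ᵥ ![X 3, X 4, X 5, 1])

/-- The form `F` is smooth: its partial derivatives have no common zero but the origin. -/
def IsSmoothForm {n : ℕ} (F : MvPolynomial (Fin n) ℂ) : Prop :=
  ∀ z : Fin n → ℂ, (∀ i, eval z (pderiv i F) = 0) → z = 0

/-- The hypersurface `F = 0` is rational: its function field, in the chart `x₀ = 1`, is the field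
of rational functions in four variables over `ℂ`. -/
def IsRationalForm (F : MvPolynomial (Fin 6) ℂ) : Prop :=
  Nonempty (FractionRing (MvPolynomial (Fin 5) ℂ ⧸
      Ideal.span {aeval (Fin.cons 1 X : Fin 6 → MvPolynomial (Fin 5) ℂ) F}) ≃ₐ[ℂ]
    FractionRing (MvPolynomial (Fin 4) ℂ))

/-- The (affine cone over the) plane `x₀ = x₁ = x₂ = 0`. -/
def basePlane : Set (Fin 6 → ℂ) := {x | x 0 = 0 ∧ x 1 = 0 ∧ x 2 = 0}

/-- The hypersurface `F = 0` contains no plane `⟨u, v, w⟩` which meets the plane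
`x₀ = x₁ = x₂ = 0` in a line `⟨u, v⟩`. -/
def NoPlaneMeetsInLine (F : MvPolynomial (Fin 6) ℂ) : Prop :=
  ∀ u ∈ basePlane, ∀ v ∈ basePlane, LinearIndependent ℂ ![u, v] → ∀ w ∉ basePlane,
    ∃ a b c : ℂ, eval (a • u + b • v + c • w) F ≠ 0

/-- The field `K = ℂ(s₀, s₁)`. -/
abbrev K : Type := FractionRing (MvPolynomial (Fin 2) ℂ)

/-- The generic point `(1, s₀, s₁)` of the plane. -/
noncomputable def gen : Fin 3 → K :=
  ![1, algebraMap (MvPolynomial (Fin 2) ℂ) K (X 0), algebraMap (MvPolynomial (Fin 2) ℂ) K (X 1)]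

/-- The quadric surface fibration has a multisection of odd degree: its generic fibre has a point
over an extension of `K` of odd degree. -/
def HasOddMultisection (M : Matrix (Fin 4) (Fin 4) (MvPolynomial (Fin 3) ℂ)) : Prop :=
  ∃ (L : Type) (_ : Field L) (_ : Algebra K L), FiniteDimensional K L ∧ Odd (finrank K L) ∧
    ∃ v : Fin 4 → L, v ≠ 0 ∧ ∑ i, ∑ j, algebraMap K L (aeval gen (M i j)) * (v i * v j) = 0

/-- The plane curve `g = 0` is irreducible of degree `m`, different from `f = 0`, and the double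
plane `z² = f` splits over it: `f` is a square modulo `g` in the function field of `g = 0`. -/
structure IsSplittingCurve (f g : MvPolynomial (Fin 3) ℂ) (m : ℕ) : Prop where
  homogeneous : g.IsHomogeneous m
  irreducible : Irreducible g
  not_dvd : ¬ g ∣ f
  split : ∃ (e : ℕ) (s c : MvPolynomial (Fin 3) ℂ), c.IsHomogeneous e ∧ ¬ g ∣ c ∧
    g ∣ c ^ 2 * f - s ^ 2

/-- The space, modulo `f`, of the forms `b` of degree `d` whose square is divisible by `u` modulo
`f`: the sections of the square root of the line bundle `2 d h - div u` on the curve `f = 0`. -/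
noncomputable def sectionSpace (f u : MvPolynomial (Fin 3) ℂ) (d : ℕ) :
    Submodule ℂ (MvPolynomial (Fin 3) ℂ ⧸ Ideal.span {f}) :=
  (Submodule.span ℂ {b | b.IsHomogeneous d ∧ b ^ 2 ∈ Ideal.span {u, f}}).map
    (Ideal.Quotient.mkₐ ℂ (Ideal.span {f})).toLinearMap

/-- The weights of the coordinates `x₀, x₁, x₂, z` of the space `ℙ(1, 1, 1, 3)` containing the
double plane `z² = f`. -/
def doubleWeight : Fin 4 → ℕ := ![1, 1, 1, 3]

/-- `I` is the homogeneous prime ideal of an integral curve of degree `d` and arithmetic genus `p`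
on the double plane `z² = f`: its Hilbert polynomial is `d n + 1 - p`. -/
structure IsDoublePlaneCurve (f : MvPolynomial (Fin 3) ℂ) (I : Ideal (MvPolynomial (Fin 4) ℂ))
    (d p : ℤ) : Prop where
  prime : I.IsPrime
  homogeneous : ∀ a ∈ I, ∀ n, weightedHomogeneousComponent doubleWeight n a ∈ I
  mem : X 3 ^ 2 - rename Fin.castSucc f ∈ I
  hilbert : ∃ n₀ : ℕ, ∀ n : ℕ, n₀ ≤ n →
    (finrank ℂ ((weightedHomogeneousSubmodule ℂ doubleWeight n).map
      (Ideal.Quotient.mkₐ ℂ I).toLinearMap) : ℤ) = d * n + 1 - p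

/-- The point `(q₃ s, q₀, q₁, q₂)` of `ℂ⁶`: the points of the fibre over `s` of the projection from
the plane `x₀ = x₁ = x₂ = 0` have the coordinates `q₀, q₁, q₂, q₃`. -/
def fibrePoint (s : Fin 3 → ℂ) (q : Fin 4 → ℂ) : Fin 6 → ℂ :=
  ![q 3 * s 0, q 3 * s 1, q 3 * s 2, q 0, q 1, q 2]

/-- The (cone over the) surface swept out by the lines joining the points `p(s)` and `p'(s)` of the
fibres of the projection from the plane, `s` in the plane curve `g = 0`. -/
def scroll (g : MvPolynomial (Fin 3) ℂ) (p p' : Fin 4 → MvPolynomial (Fin 3) ℂ) :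
    Set (Fin 6 → ℂ) :=
  {x | ∃ (s : Fin 3 → ℂ) (a b : ℂ), eval s g = 0 ∧
    x = fibrePoint s fun i => a * eval s (p i) + b * eval s (p' i)}

/-- The cubic fourfold contains the surface, not contained in the plane `x₀ = x₁ = x₂ = 0`, swept
out by the lines joining `p(s)` and `p'(s)`, `s` in the irreducible plane curve `g = 0` of degree
`m`, which is not a component of the discriminant. -/
structure IsLineScroll (M : Matrix (Fin 4) (Fin 4) (MvPolynomial (Fin 3) ℂ))
    (g : MvPolynomial (Fin 3) ℂ) (m a b : ℕ) (p p' : Fin 4 → MvPolynomial (Fin 3) ℂ) : Prop where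
  homogeneous : g.IsHomogeneous m
  irreducible : Irreducible g
  not_dvd : ¬ g ∣ M.det
  left : ∀ i, (p i).IsHomogeneous (a + (1 - weight i))
  right : ∀ i, (p' i).IsHomogeneous (b + (1 - weight i))
  independent : ∃ s, eval s g = 0 ∧
    LinearIndependent ℂ ![fun i => eval s (p i), fun i => eval s (p' i)]
  not_in_plane : ∃ x ∈ scroll g p p', x ∉ basePlane
  contained : ∀ x ∈ scroll g p p', eval x (cubicForm M) = 0

/-- The forms of degree `n + 1` which vanish with multiplicity at least `n` along the plane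
`x₀ = x₁ = x₂ = 0`. -/
noncomputable def multiplicityForms (n : ℕ) : Submodule ℂ (MvPolynomial (Fin 6) ℂ) :=
  homogeneousSubmodule (Fin 6) ℂ (n + 1) ⊓
    ((Ideal.span {X 0, X 1, X 2} : Ideal (MvPolynomial (Fin 6) ℂ)) ^ n).restrictScalars ℂ

/-- Restriction of polynomial functions to `T`. -/
noncomputable def restrictTo (T : Set (Fin 6 → ℂ)) : MvPolynomial (Fin 6) ℂ →ₗ[ℂ] (T → ℂ) :=
  LinearMap.pi fun x => (aeval x.val).toLinearMap

/-- The dimension of the space of the restrictions of these forms to `T`. -/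
noncomputable def restrictionRank (T : Set (Fin 6 → ℂ)) (n : ℕ) : ℕ :=
  finrank ℂ ((multiplicityForms n).map (restrictTo T))

lemma scroll_eq (g : MvPolynomial (Fin 3) ℂ) (p p' : Fin 4 → MvPolynomial (Fin 3) ℂ) :
    scroll g p p' = C8.scroll g p p' := by
  ext x
  constructor
  · rintro ⟨s, a, b, hs, rfl⟩
    exact ⟨s, ![a, b], hs, rfl⟩
  · rintro ⟨s, y, hs, rfl⟩
    exact ⟨s, y 0, y 1, hs, rfl⟩

lemma no_plane {F : MvPolynomial (Fin 6) ℂ} (h : NoPlaneMeetsInLine F)
    (V : Submodule ℂ (Fin 6 → ℂ)) (hV : finrank ℂ V = 3) (hF : ∀ x ∈ V, eval x F = 0) :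
    finrank ℂ (V ⊓ C8.Pl : Submodule ℂ (Fin 6 → ℂ)) ≠ 2 := by
  intro h2
  have b := Module.finBasisOfFinrankEq ℂ (V ⊓ C8.Pl : Submodule ℂ (Fin 6 → ℂ)) h2
  obtain ⟨w, hw, hwP⟩ : ∃ w ∈ V, w ∉ C8.Pl := by
    by_contra hcon
    push Not at hcon
    have h3 : V ⊓ C8.Pl = V := inf_eq_left.2 hcon
    rw [h3, hV] at h2
    exact absurd h2 (by norm_num)
  have hu := (b 0).2
  have hv := (b 1).2
  rw [Submodule.mem_inf] at hu hv
  obtain ⟨x, y, z, hxyz⟩ := h (b 0).val hu.2 (b 1).val hv.2 (by
    have h3 := b.linearIndependent.map' (Submodule.subtype _) (Submodule.ker_subtype _)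
    have h4 : ![(b 0).val, (b 1).val] = (V ⊓ C8.Pl).subtype ∘ b := by
      funext i
      fin_cases i <;> rfl
    rw [h4]
    exact h3) w hwP
  exact hxyz (hF _ (add_mem (add_mem (V.smul_mem _ hu.1) (V.smul_mem _ hv.1))
    (V.smul_mem _ hw)))

lemma finrank_map_eq {V W₁ W₂ : Type*} [AddCommGroup V] [Module ℂ V] [AddCommGroup W₁]
    [Module ℂ W₁] [AddCommGroup W₂] [Module ℂ W₂] (p : Submodule ℂ V) (f₁ : V →ₗ[ℂ] W₁)
    (f₂ : V →ₗ[ℂ] W₂) (h : LinearMap.ker f₁ = LinearMap.ker f₂) :
    finrank ℂ (p.map f₁) = finrank ℂ (p.map f₂) := by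
  have h1 : LinearMap.ker (f₁.domRestrict p) = LinearMap.ker (f₂.domRestrict p) := by
    ext x
    have h2 : x.val ∈ LinearMap.ker f₁ ↔ x.val ∈ LinearMap.ker f₂ := by rw [h]
    exact h2
  rw [← LinearMap.range_domRestrict, ← LinearMap.range_domRestrict,
    ← (f₁.domRestrict p).quotKerEquivRange.finrank_eq,
    ← (f₂.domRestrict p).quotKerEquivRange.finrank_eq]
  exact (Submodule.quotEquivOfEq _ _ h1).finrank_eq

lemma restrictionRank_eq (T : Set (Fin 6 → ℂ)) (n : ℕ) : restrictionRank T n = C8.hT T n := by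
  refine finrank_map_eq _ _ _ ?_
  ext F
  constructor
  · intro h
    change Ideal.Quotient.mk (vanishingIdeal ℂ T) F = 0
    rw [Ideal.Quotient.eq_zero_iff_mem, mem_vanishingIdeal_iff]
    intro x hx
    exact congrFun h ⟨x, hx⟩
  · intro h
    have h1 : Ideal.Quotient.mk (vanishingIdeal ℂ T) F = 0 := h
    rw [Ideal.Quotient.eq_zero_iff_mem, mem_vanishingIdeal_iff] at h1
    change restrictTo T F = 0
    funext x
    exact h1 x.val x.2

theorem result (M : Matrix (Fin 4) (Fin 4) (MvPolynomial (Fin 3) ℂ)) (hM : IsFibrationMatrix M)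
    (hs : IsSmoothForm (cubicForm M)) (hP : NoPlaneMeetsInLine (cubicForm M))
    (h : HasOddMultisection M ∨
      (∃ g r, IsSplittingCurve M.det g (2 * r) ∧
        finrank ℂ (sectionSpace M.det (M.adjugate 3 3 * g) (r + 3)) ≠ 1) ∨
      (∃ g r, IsSplittingCurve M.det g (2 * r + 1) ∧
        Even (finrank ℂ (sectionSpace M.det g (r + 2)))) ∨
      (∃ I d p, IsDoublePlaneCurve M.det I d p ∧ Odd d ∧ Odd p) ∨
      (∃ g r a b p p', IsLineScroll M g (2 * r) a b p p' ∧
        ∀ n₀, ∃ n, n₀ ≤ n ∧ Odd (restrictionRank (scroll g p p') n + r))) :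
    IsRationalForm (cubicForm M) := by
  have hs' : SmoothForm (H925.cubicOf M) := by
    intro z hz
    apply hs z
    intro i
    rw [H925.eval_eq_aeval]
    exact hz i
  have hd : Theta.SmoothP M.det := C8.smoothP_det_of_no_plane hM.symm hM.homogeneous hs'
    (no_plane hP)
  rcases h with ⟨L, _, _, hfin, hodd, v, hv, hqv⟩ | ⟨g, r, hg, h⟩ | ⟨g, r, hg, h⟩ |
    ⟨I, d, p, hI, hd1, hp1⟩ | ⟨g, r, a, b, p, p', hg, h⟩
  · exact H754.rational_of_odd_multisection' M hM.homogeneous hs' hodd v hv hqv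
  · exact C8.typeA hM.symm hM.homogeneous hs' hd hg.irreducible hg.homogeneous hg.not_dvd
      hg.split h
  · exact C8.typeC hM.symm hM.homogeneous hs' hd hg.irreducible hg.homogeneous hg.not_dvd
      hg.split h
  · obtain ⟨r, g, hg, pg, hgf, hsq, hev⟩ := C8.CurveOn.even_sections (P := I)
      ⟨hI.prime, hI.homogeneous, hI.mem, hI.hilbert⟩ (Theta.det_hom6 hM.homogeneous) hd hd1 hp1
    exact C8.typeC hM.symm hM.homogeneous hs' hd pg.irreducible hg hgf hsq hev
  · have h1 := hg.not_in_plane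
    have h2 := hg.contained
    rw [scroll_eq] at h1 h2
    refine C8.rational_of_scroll hM.symm hM.homogeneous hs' hd hg.irreducible hg.homogeneous
      hg.not_dvd hg.left hg.right hg.independent h1 h2 fun n₀ => ?_
    obtain ⟨n, hn, h'⟩ := h n₀
    rw [restrictionRank_eq, scroll_eq] at h'
    exact ⟨n, hn, h'⟩

end Vale.Agent.Results.P287.SplittingCurve
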