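import Vale.Agent.P287.H754.VerraCubic

/-!
Rationality of smooth cubic fourfolds containing a plane, by means of Verra fourfolds: the quadratic
form over `K = ℂ(s₀, s₁)` of the quadric surface fibration given by the projection from the plane,
or its even Clifford algebra, comes from a double cover `w² = Φ(x; s)` of `ℙ² × ℙ²` branched along a
divisor of bidegree `(2, 2)`, whose other quadric surface fibration has a multisection of odd
degree.
-/

namespace Vale.Agent.Results.P287.VerraMorita

open MvPolynomial Matrix Module Vale.Agent.P287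

/-- The weights `0, 0, 0, 1` of the four coordinates `y₀, y₁, y₂, 1`. -/
def weight : Fin 4 → ℕ := ![0, 0, 0, 1]

/-- `M` is the matrix of the quadric surface fibration of a cubic fourfold containing the plane
`x₀ = x₁ = x₂ = 0`: it is symmetric and `M i j` is a form in `x₀, x₁, x₂` of degree
`1 + weight i + weight j`. -/
structure IsFibrationMatrix (M : Matrix (Fin 4) (Fin 4) (MvPolynomial (Fin 3) ℂ)) : Prop where
  symm : M.IsSymm
  homogeneous : ∀ i j, (M i j).IsHomogeneous (1 + weight i + weight j)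

/-- The cubic form `∑ M i j (x₀, x₁, x₂) v_i v_j` with `v = (x₃, x₄, x₅, 1)`. -/
noncomputable def cubicForm (M : Matrix (Fin 4) (Fin 4) (MvPolynomial (Fin 3) ℂ)) :
    MvPolynomial (Fin 6) ℂ :=
  ![X 3, X 4, X 5, 1] ⬝ᵥ ((M.map (aeval ![X 0, X 1, X 2])) *ᵥ ![X 3, X 4, X 5, 1])

/-- The form `F` is smooth: its partial derivatives have no common zero but the origin. -/
def IsSmoothForm {n : ℕ} (F : MvPolynomial (Fin n) ℂ) : Prop :=
  ∀ z : Fin n → ℂ, (∀ i, eval z (pderiv i F) = 0) → z = 0

/-- The hypersurface `F = 0` is rational: its function field, in the chart `x₀ = 1`, is the field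
of rational functions in four variables over `ℂ`. -/
def IsRationalForm (F : MvPolynomial (Fin 6) ℂ) : Prop :=
  Nonempty (FractionRing (MvPolynomial (Fin 5) ℂ ⧸
      Ideal.span {aeval (Fin.cons 1 X : Fin 6 → MvPolynomial (Fin 5) ℂ) F}) ≃ₐ[ℂ]
    FractionRing (MvPolynomial (Fin 4) ℂ))

/-- The field `K = ℂ(s₀, s₁)`. -/
abbrev K : Type := FractionRing (MvPolynomial (Fin 2) ℂ)

/-- The generic point `(1, s₀, s₁)` of the plane. -/
noncomputable def gen : Fin 3 → K :=
  ![1, algebraMap (MvPolynomial (Fin 2) ℂ) K (X 0), algebraMap (MvPolynomial (Fin 2) ℂ) K (X 1)]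

/-- The value at `v ∈ K⁴` of the quadratic form of the fibration. -/
noncomputable def fibForm (M : Matrix (Fin 4) (Fin 4) (MvPolynomial (Fin 3) ℂ)) (v : Fin 4 → K) :
    K := v ⬝ᵥ ((M.map (aeval gen)) *ᵥ v)

/-- The coefficients of a form `Φ(x; s) = ∑ c a b i j x_a x_b s_i s_j` of bidegree `(2, 2)`,
symmetric in `a, b` and in `i, j`. -/
structure IsBiform (c : Fin 3 → Fin 3 → Fin 3 → Fin 3 → ℂ) : Prop where
  left : ∀ a b i j, c a b i j = c b a i j
  right : ∀ a b i j, c a b i j = c a b j i

/-- The discriminant of `Φ` as a quadratic form in `x`, a sextic form in `s`. -/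
noncomputable def firstDisc (c : Fin 3 → Fin 3 → Fin 3 → Fin 3 → ℂ) : MvPolynomial (Fin 3) ℂ :=
  (Matrix.of fun a b => ∑ i, ∑ j, C (c a b i j) * (X i * X j)).det

/-- The value at `(x, w) ∈ K⁴` of the form `Φ(x; s) - w²`, where `s` is the generic point. -/
noncomputable def firstForm (c : Fin 3 → Fin 3 → Fin 3 → Fin 3 → ℂ) (v : Fin 4 → K) : K :=
  (∑ a : Fin 3, ∑ b : Fin 3, ∑ i, ∑ j,
    algebraMap ℂ K (c a b i j) * (gen i * gen j) * (v a.castSucc * v b.castSucc)) - v 3 ^ 2

/-- The value at `(s, w) ∈ L⁴` of the form `Φ(x; s) - w²`, where `x` is the generic point and `L`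
is an extension of `K`. -/
noncomputable def secondForm (c : Fin 3 → Fin 3 → Fin 3 → Fin 3 → ℂ) {L : Type} [Field L]
    [Algebra K L] (u : Fin 4 → L) : L :=
  (∑ i : Fin 3, ∑ j : Fin 3, ∑ a, ∑ b,
    algebraMap K L (algebraMap ℂ K (c a b i j) * (gen a * gen b)) *
      (u i.castSucc * u j.castSucc)) - u 3 ^ 2

/-- The second quadric surface fibration of the double cover `w² = Φ(x; s)` has a multisection of
odd degree. -/
def HasOddMultisection (c : Fin 3 → Fin 3 → Fin 3 → Fin 3 → ℂ) : Prop :=
  ∃ (L : Type) (_ : Field L) (_ : Algebra K L), FiniteDimensional K L ∧ Odd (finrank K L) ∧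
    ∃ u : Fin 4 → L, u ≠ 0 ∧ secondForm c u = 0

/-- The quadratic form of the fibration is similar over `K` to the form of the first fibration of
the double cover. -/
def SimilarToVerra (M : Matrix (Fin 4) (Fin 4) (MvPolynomial (Fin 3) ℂ))
    (c : Fin 3 → Fin 3 → Fin 3 → Fin 3 → ℂ) : Prop :=
  ∃ (l : K) (φ : (Fin 4 → K) ≃ₗ[K] (Fin 4 → K)), ∀ v, firstForm c (φ v) = l * fibForm M v

/-- The even Clifford algebras over `K` of these two quadratic forms are Morita equivalent. -/
def MoritaToVerra (M : Matrix (Fin 4) (Fin 4) (MvPolynomial (Fin 3) ℂ))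
    (c : Fin 3 → Fin 3 → Fin 3 → Fin 3 → ℂ) : Prop :=
  ∃ q N : QuadraticForm K (Fin 4 → K), (∀ v, q v = fibForm M v) ∧ (∀ v, N v = firstForm c v) ∧
    IsMoritaEquivalent K (CliffordAlgebra.even q) (CliffordAlgebra.even N)

theorem result (M : Matrix (Fin 4) (Fin 4) (MvPolynomial (Fin 3) ℂ)) (hM : IsFibrationMatrix M)
    (hs : IsSmoothForm (cubicForm M)) (c : Fin 3 → Fin 3 → Fin 3 → Fin 3 → ℂ) (hc : IsBiform c)
    (hd : IsSmoothForm (firstDisc c)) (ho : HasOddMultisection c)
    (h : SimilarToVerra M c ∨ MoritaToVerra M c) : IsRationalForm (cubicForm M) := by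
  classical
  have hchar : CharZero K := charZero_of_injective_algebraMap (algebraMap ℂ K).injective
  have hinv : Invertible (2 : K) := invertibleOfNonzero two_ne_zero
  have hs' : SmoothForm (H925.cubicOf M) := by
    intro z hz
    apply hs z
    intro i
    rw [H925.eval_eq_aeval]
    exact hz i
  have hc' : H139.IsBisymm c := ⟨hc.left, hc.right⟩
  have hd' : Theta.SmoothP (H139.matA c (X : Fin 3 → MvPolynomial (Fin 3) ℂ)).det := hd
  have h1 : ∀ v, qf (H139.amat c) v = firstForm c v := by
    intro v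
    rw [H139.qf_amat]
    congr 1
    simp only [H139.matA, dotProduct, Matrix.mulVec, Matrix.of_apply, Finset.sum_mul,
      Finset.mul_sum]
    have hv : ∀ a : Fin 3, (![v 0, v 1, v 2] : Fin 3 → K) a = v a.castSucc := by
      intro a
      fin_cases a <;> rfl
    refine Finset.sum_congr rfl fun a _ => Finset.sum_congr rfl fun b _ =>
      Finset.sum_congr rfl fun i _ => Finset.sum_congr rfl fun j _ => ?_
    rw [hv, hv]
    change v a.castSucc * (algebraMap ℂ K (c a b i j) * (gen i * gen j) * v b.castSucc) = _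
    ring
  obtain ⟨L, _, _, hfin, hodd, u, hu, hqu⟩ := ho
  have hw : Ideal.span (Set.range u) = ⊤ := by
    obtain ⟨i, hi⟩ : ∃ i, u i ≠ 0 := by
      by_contra hcon
      push Not at hcon
      exact hu (funext hcon)
    exact Ideal.eq_top_of_isUnit_mem _ (Ideal.subset_span ⟨i, rfl⟩) (isUnit_iff_ne_zero.2 hi)
  have hqu' : qf (H139.vmat c) u = 0 := by
    let _ : Algebra ℂ L := ((algebraMap K L).comp (algebraMap ℂ K)).toAlgebra
    have : IsScalarTower ℂ K L := IsScalarTower.of_algebraMap_eq fun _ => rfl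
    rw [H139.qf_vmat, ← hqu, secondForm]
    congr 1
    have hv : ∀ a : Fin 3, (![u 0, u 1, u 2] : Fin 3 → L) a = u a.castSucc := by
      intro a
      fin_cases a <;> rfl
    have h2 : ∀ i j : Fin 3, H139.matB c (fun i => algebraMap K L (tvec i)) i j =
        ∑ a, ∑ b, algebraMap K L (algebraMap ℂ K (c a b i j) * (gen a * gen b)) := by
      intro i j
      simp only [H139.matB, Matrix.of_apply]
      refine Finset.sum_congr rfl fun a _ => Finset.sum_congr rfl fun b _ => ?_
      rw [map_mul, map_mul]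
      rfl
    simp only [dotProduct, Matrix.mulVec, hv, h2, Finset.sum_mul, Finset.mul_sum]
    refine Finset.sum_congr rfl fun i _ => Finset.sum_congr rfl fun j _ =>
      Finset.sum_congr rfl fun a _ => Finset.sum_congr rfl fun b _ => ?_
    ring
  have key : (∃ (l : K) (φ : (Fin 4 → K) ≃ₗ[K] (Fin 4 → K)),
      ∀ v, firstForm c (φ v) = l * fibForm M v) → IsRationalForm (cubicForm M) := by
    rintro ⟨l, φ, hφ⟩
    exact H754.rational_of_verra_similar M hM.homogeneous hs' hc' hd' φ
      (fun v => by rw [h1, hφ]; rfl) hodd u hw hqu'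
  rcases h with h | ⟨q, N, hq, hN, h⟩
  · exact key h
  · by_cases han : q.Anisotropic
    · obtain ⟨l, _, φ, hφ⟩ := H754.similar_four (by simp) (by simp) q N han h
      exact key ⟨l, φ, fun v => by rw [← hN, hφ, hq]⟩
    · rw [QuadraticMap.Anisotropic] at han
      push Not at han
      obtain ⟨v, hv, hv0⟩ := han
      rw [hq] at hv
      exact Theta.rational_of_isotropic_matrix M hM.homogeneous hs' v hv0 hv

end Vale.Agent.Results.P287.VerraMorita
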